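import Crest.Agent.X212.Ext52.Defs

/-!
# X212 / Ext52 (helper52): topology of the smooth fillings, transport diffeomorphisms

* `Ext`, `Fill` are connected, `Ext` is dense in `Fill`;
* `t.homeo σ : SlopeFilling t.thick σ ≃ₜ Fill t σ`, the identity on the exterior;
* `Tube.transport` : `Fill t' σ' ≃ Fill t σ` (identity on the exterior) from a reparametrisation `ψ`;
* `Tube.signDiffeo` (same slope up to sign), `Tube.sphereDiffeo` (`Fill t (±1, 0) ≃ S3`).
-/

set_option autoImplicit false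
set_option linter.unusedSectionVars false
set_option linter.style.haveILetI false

open Set Filter Topology Function TopologicalSpace Metric
open scoped ContDiff Manifold
open Crest.GeometryTopology.DehnSurgery Crest.Agent.X212.Glue52

noncomputable section

namespace Crest.Agent.X212.Ext52

instance : ConnectedSpace S3 :=
  isConnected_iff_connectedSpace.1 (isConnected_sphere (by
    rw [← Module.finrank_eq_rank, finrank_euclideanSpace_fin]
    norm_num) 0 zero_le_one)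

instance : ConnectedSpace Cz := by
  have h : IsConnected ((univ : Set Circle) ×ˢ ({0}ᶜ : Set ℂ)) :=
    isConnected_univ.prod (isConnected_compl_singleton_of_one_lt_rank (by simp) 0)
  have e : ((univ : Set Circle) ×ˢ ({0}ᶜ : Set ℂ)) = (Cz : Set (Circle × ℂ)) :=
    Set.ext fun z => ⟨fun h => h.2, fun h => ⟨trivial, h⟩⟩
  exact isConnected_iff_connectedSpace.1 (e ▸ h)

theorem dense_Cz : Dense (Cz : Set (Circle × ℂ)) := by
  have e : (Cz : Set (Circle × ℂ)) = ((univ : Set Circle) ×ˢ ({0}ᶜ : Set ℂ)) :=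
    Set.ext fun z => ⟨fun h => ⟨trivial, h⟩, fun h => h.2⟩
  rw [e]
  exact dense_univ.prod (dense_compl_singleton 0)

namespace Tube

variable (t : Tube) (σ : FillingData)

instance : ConnectedSpace t.Ext := by
  have hc : IsPreconnected (range t.τE) := isPreconnected_range t.ld_τE.contMDiff.continuous
  have key : ∀ A B : Set t.Ext, IsOpen A → IsOpen B → univ ⊆ A ∪ B → Disjoint A B →
      range t.τE ⊆ A → univ ⊆ A := by
    intro A B hA hB hu hd hr x _
    by_contra hx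
    have hxB : x ∈ B := (hu trivial).resolve_left hx
    have h := (isPreconnected_univ (α := S3)) (Subtype.val '' A ∪ range t.τ) (Subtype.val '' B)
      ((t.Ext.isOpen.isOpenMap_subtype_val _ hA).union t.isOpenEmbedding.isOpen_range)
      (t.Ext.isOpen.isOpenMap_subtype_val _ hB) (fun y _ => ?_) ⟨t.τ (1, 0), trivial, Or.inr ⟨_, rfl⟩⟩
      ⟨x, trivial, x, hxB, rfl⟩
    · obtain ⟨_, -, h1, y, hy, rfl⟩ := h
      rcases h1 with ⟨y', hy', e⟩ | ⟨z, e⟩
      · exact disjoint_left.1 hd (Subtype.ext e ▸ hy') hy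
      · exact disjoint_left.1 hd (hr ⟨⟨z, t.τ_mem_Ext.1 (e ▸ y.2)⟩, Subtype.ext e⟩) hy
    · by_cases h : y ∈ range t.τ
      · exact Or.inl (Or.inr h)
      · rcases hu (mem_univ (⟨y, t.mem_Ext_of_not_mem_range h⟩ : t.Ext)) with h' | h'
        exacts [Or.inl (Or.inl ⟨_, h', rfl⟩), Or.inr ⟨_, h', rfl⟩]
  rw [connectedSpace_iff_univ]
  refine ⟨⟨t.τE ⟨(1, 1), one_ne_zero⟩, trivial⟩, ?_⟩
  rw [isPreconnected_iff_subset_of_disjoint]
  intro A B hA hB hu hd
  have hd' : Disjoint A B := by rwa [univ_inter, ← disjoint_iff_inter_eq_empty] at hd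
  rcases hc.subset_or_subset hA hB hd' ((subset_univ _).trans hu) with h | h
  · exact Or.inl (key A B hA hB hu hd' h)
  · exact Or.inr (key B A hB hA (by rwa [union_comm]) hd'.symm h)

instance : ConnectedSpace (Fill t σ) := (t.two σ).connectedSpace

theorem denseRange_ie : DenseRange (t.ie σ) := by
  intro x
  refine (t.two σ).ind (fun p => subset_closure ⟨p, rfl⟩) (fun z => ?_) x
  refine closure_mono ?_ (image_closure_subset_closure_image
    (t.two σ).isOpenEmbedding_inr.continuous ⟨z, dense_Cz z, rfl⟩)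
  rintro _ ⟨w, hw, rfl⟩
  exact ⟨_, t.ie_τE σ ⟨w, hw⟩⟩

theorem mem_range_ie {z : Circle × ℂ} : t.it σ z ∈ range (t.ie σ) ↔ z.2 ≠ 0 :=
  ⟨fun ⟨_, e⟩ => ((t.ie_eq_it σ).1 e).1, fun h => ⟨_, t.ie_τE σ ⟨z, h⟩⟩⟩

/-! ### comparison with the adjunction space -/

theorem exterior_subset : t.thick.exterior ⊆ t.Ext := by
  rintro x hx ⟨w, hw, e⟩
  exact hx ⟨w, ⟨mem_univ _, by rw [show w.2 = 0 from hw.2]; exact mem_ball_self one_pos⟩, e⟩

/-- the closed exterior in the open exterior -/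
def ofExterior (e : t.thick.exterior) : t.Ext := ⟨e.1, t.exterior_subset e.2⟩

theorem mon_circle (q b p a : ℤ) (x y : Circle) :
    mon q b p a (y, x) = (x ^ q * y ^ b, ((x ^ p * y ^ a : Circle) : ℂ)) := by
  simpa using mon_polar q b p a one_pos x y

/-- the comparison map -/
def cmp : SlopeFilling t.thick σ → Fill t σ :=
  Quot.lift (Sum.elim (fun e => t.ie σ (t.ofExterior e)) fun d => t.it σ (d.2, d.1)) (by
    rintro _ _ ⟨x, y⟩
    exact ((t.ie_eq_it σ).2 ⟨x.coe_ne_zero, congrArg t.τ (mon_circle _ _ _ _ x y)⟩).symm)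

theorem continuous_cmp : Continuous (t.cmp σ) :=
  continuous_quot_lift _ (((t.two σ).isOpenEmbedding_inl.continuous.comp
    (continuous_subtype_val.subtype_mk _)).sumElim ((t.two σ).isOpenEmbedding_inr.continuous.comp
      (continuous_snd.prodMk (continuous_subtype_val.comp continuous_fst))))

theorem cmp_mixed (e : t.thick.exterior) (d : FillingTorus)
    (h : t.ie σ (t.ofExterior e) = t.it σ (d.2, d.1)) :
    Quot.mk (GlueRel t.thick σ) (.inl e) = Quot.mk _ (.inr d) := by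
  obtain ⟨⟨d, hd⟩, y⟩ := d
  obtain ⟨-, h2⟩ := (t.ie_eq_it σ).1 h
  have h3 : ‖d‖ = 1 := by
    refine le_antisymm (mem_closedBall_zero_iff.1 hd) (not_lt.1 fun hlt => e.2 ⟨_, ⟨mem_univ _, ?_⟩, h2⟩)
    rwa [mem_ball_zero_iff, norm_mon]
  let x : Circle := ⟨d, mem_sphere_zero_iff_norm.2 h3⟩
  have h4 : e = t.thick.boundaryPoint (x ^ σ.q * y ^ σ.b) (x ^ σ.p * y ^ σ.a) :=
    Subtype.ext (h2.symm.trans (congrArg t.τ (mon_circle _ _ _ _ x y)))
  rw [h4]
  exact (Quot.sound (GlueRel.glue x y)).symm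

theorem bijective_cmp : Bijective (t.cmp σ) := by
  constructor
  · rintro ⟨e | d⟩ ⟨e' | d'⟩ h
    · have := congrArg Subtype.val ((t.two σ).inl_injective h)
      exact congrArg (fun e => Quot.mk _ (Sum.inl e)) (Subtype.ext this)
    · exact t.cmp_mixed σ e d' h
    · exact (t.cmp_mixed σ e' d h.symm).symm
    · have := (t.two σ).inr_injective h
      exact congrArg (fun e => Quot.mk _ (Sum.inr e))
        (Prod.ext (Subtype.ext (congrArg Prod.snd this)) (congrArg Prod.fst this))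
  · have a : ∀ z : Circle × ℂ, ‖z.2‖ ≤ 1 → ∃ w, t.cmp σ w = t.it σ z := fun z h =>
      ⟨Quot.mk _ (.inr (⟨z.2, mem_closedBall_zero_iff.2 h⟩, z.1)), rfl⟩
    have b : ∀ x : t.Ext, ∃ w, t.cmp σ w = t.ie σ x := fun x => by
      by_cases h : x.1 ∈ t.thick.exterior
      · exact ⟨Quot.mk _ (.inl ⟨x.1, h⟩), rfl⟩
      · obtain ⟨z, hz, e⟩ := not_not.1 h
        have h0 : z.2 ≠ 0 := t.τ_mem_Ext.1 (by rw [show t.τ z = x.1 from e]; exact x.2)
        rw [show x = t.τE ⟨z, h0⟩ from Subtype.ext e.symm, ie_τE']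
        exact a _ (by rw [tw_symm_val, norm_mon]; exact (mem_ball_zero_iff.1 hz.2).le)
    refine (t.two σ).ind b fun z => ?_
    by_cases h : z.2 = 0
    · exact a z (by simp [h])
    · obtain ⟨w, hw⟩ := b (t.τE (tw σ ⟨z, h⟩))
      exact ⟨w, hw.trans (t.ie_τE σ ⟨z, h⟩)⟩

instance (T : ThickKnot) : CompactSpace T.exterior :=
  isCompact_iff_compactSpace.1
    (T.isOpenEmbedding.isOpenMap _ (isOpen_univ.prod isOpen_ball)).isClosed_compl.isCompact

instance (T : ThickKnot) : CompactSpace (SlopeFilling T σ) :=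
  inferInstanceAs (CompactSpace (Quot _))

/-- the adjunction space of the statement is homeomorphic to the smooth filling -/
def homeo : SlopeFilling t.thick σ ≃ₜ Fill t σ :=
  Continuous.homeoOfEquivCompactToT2 (f := Equiv.ofBijective _ (t.bijective_cmp σ)) (t.continuous_cmp σ)

theorem homeo_inl (e : t.thick.exterior) :
    t.homeo σ (Quot.mk _ (.inl e)) = t.ie σ (t.ofExterior e) := rfl

theorem homeo_inr (d : FillingTorus) : t.homeo σ (Quot.mk _ (.inr d)) = t.it σ (d.2, d.1) := rfl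

theorem homeo_symm_ie (e : t.thick.exterior) :
    (t.homeo σ).symm (t.ie σ (t.ofExterior e)) = Quot.mk _ (.inl e) :=
  (t.homeo σ).symm_apply_eq.2 rfl

/-! ### transport -/

/-- a reparametrisation `ψ` of the solid torus relating `(t', σ')` to `(t, σ)` -/
structure Rep (t' t : Tube) (σ' σ : FillingData) where
  ψ : Circle × ℂ → Circle × ℂ
  ld : IsLocalDiffeomorph IT IT ∞ ψ
  inj : Injective ψ
  zero : ∀ z, (ψ z).2 = 0 ↔ z.2 = 0
  surj : ∀ u, ∃ z, ψ z = (u, 0)
  ext : t'.Ext = t.Ext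
  rel : ∀ z, z.2 ≠ 0 → t'.τ (mon σ'.q σ'.b σ'.p σ'.a z) = t.τ (mon σ.q σ.b σ.p σ.a (ψ z))

variable {t σ} {t' : Tube} {σ' : FillingData}

theorem mon_injOn (σ : FillingData) {z w : Circle × ℂ} (hz : z.2 ≠ 0) (hw : w.2 ≠ 0)
    (e : mon σ.q σ.b σ.p σ.a z = mon σ.q σ.b σ.p σ.a w) : z = w :=
  congrArg Subtype.val ((tw σ).injective (a₁ := ⟨z, hz⟩) (a₂ := ⟨w, hw⟩) (Subtype.ext e))

/-- the diffeomorphism of fillings that is the identity on the exterior -/
def Rep.diffeo (R : Rep t' t σ' σ) : Fill t' σ' ≃ₘ^∞⟮𝓡 3, 𝓡 3⟯ Fill t σ :=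
  (t'.two σ').diffeo (t.ie σ ∘ Opens.inclusion R.ext.le) (t.it σ ∘ R.ψ)
    (ld_comp (t.two σ).ld_inl (ld_inclusion _)) (ld_comp (t.two σ).ld_inr R.ld)
    ((t.two σ).inl_injective.comp (Set.inclusion_injective R.ext.le)) ((t.two σ).inr_injective.comp R.inj)
    ((t.two σ).ind (fun x => Or.inl ⟨⟨x.1, R.ext.ge x.2⟩, rfl⟩) fun z => by
      by_cases h : z.2 = 0
      · obtain ⟨w, e⟩ := R.surj z.1
        exact Or.inr ⟨w, congrArg (t.it σ) (e.trans (Prod.ext rfl h.symm))⟩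
      · exact Or.inl ⟨⟨_, R.ext.ge (t.τE (tw σ ⟨z, h⟩)).2⟩, t.ie_τE σ ⟨z, h⟩⟩)
    (fun x z => (t.ie_eq_it σ).trans <| Iff.trans
      ⟨fun h => ⟨mt (R.zero z).2 h.1, (R.rel z (mt (R.zero z).2 h.1)).trans h.2⟩,
        fun h => ⟨mt (R.zero z).1 h.1, (R.rel z h.1).symm.trans h.2⟩⟩
      ((t'.ie_eq_it σ').symm.trans (t'.two σ').inl_eq_inr))

theorem Rep.diffeo_ie (R : Rep t' t σ' σ) (x : t'.Ext) :
    R.diffeo (t'.ie σ' x) = t.ie σ ⟨x.1, R.ext.le x.2⟩ := by
  unfold Rep.diffeo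
  rw [Two.diffeo_inl]
  rfl

theorem Rep.diffeo_it (R : Rep t' t σ' σ) (z : Circle × ℂ) :
    R.diffeo (t'.it σ' z) = t.it σ (R.ψ z) := by
  unfold Rep.diffeo
  rw [Two.diffeo_inr]
  rfl

end Tube

/-! ### monomial maps that extend over the core -/

theorem norm_mul_dir_inv (z : ℂ) : (‖z‖ : ℂ) * ((dir z)⁻¹ : Circle) = (starRingEnd ℂ) z := by
  rw [Circle.coe_inv_eq_conj]
  conv_rhs => rw [← norm_mul_dir z, map_mul, Complex.conj_ofReal]

theorem contMDiff_mon0 (b a : ℤ) {p : ℤ} (hp : p = 1 ∨ p = -1) : ContMDiff IT IT ∞ (mon 0 b p a) := by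
  have m : ContMDiff (𝓘(ℝ, ℂ × ℂ)) 𝓘(ℝ, ℂ) ∞ fun w : ℂ × ℂ => w.1 * w.2 := contDiff_mul.contMDiff
  have c : ContMDiff IT 𝓘(ℝ, ℂ) ∞ fun z : Circle × ℂ => ((z.1 ^ a : Circle) : ℂ) :=
    contMDiff_circle_coe.comp ((contMDiff_zpow a).comp contMDiff_fst)
  have f : ContMDiff IT (𝓡 1) ∞ fun z : Circle × ℂ => z.1 ^ b := (contMDiff_zpow b).comp contMDiff_fst
  rcases hp with rfl | rfl
  · refine (f.prodMk (m.comp (contMDiff_snd.prodMk_space c))).congr fun z => ?_
    simp only [mon, zpow_zero, one_mul, zpow_one, Circle.coe_mul, ← mul_assoc, norm_mul_dir, comp_apply]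
  · refine (f.prodMk (m.comp ((Complex.conjCLE.contDiff.contMDiff.comp contMDiff_snd).prodMk_space
      c))).congr fun z => ?_
    simp only [mon, zpow_zero, one_mul, zpow_neg_one, Circle.coe_mul, ← mul_assoc, norm_mul_dir_inv,
      comp_apply, Complex.conjCLE_apply]

theorem mon0_mon0 (b p a b' p' a' : ℤ) (z : Circle × ℂ) :
    mon 0 b p a (mon 0 b' p' a' z) = mon 0 (b' * b) (p' * p) (a' * p + b' * a) z := by
  by_cases h : z.2 = 0
  · simp [mon, h, zpow_mul]
  · simpa using mon_mon 0 b p a 0 b' p' a' h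

/-- `(y, ζ) ↦ (y^b, ζ^{(p)} y^a)` for `b, p = ±1` -/
def coreD (b p a : ℤ) (hb : b = 1 ∨ b = -1) (hp : p = 1 ∨ p = -1) :
    (Circle × ℂ) ≃ₘ^∞⟮IT, IT⟯ (Circle × ℂ) :=
  diffeoOf (mon 0 b p a) (mon 0 b p (-(a * p * b))) (contMDiff_mon0 _ _ hp) (contMDiff_mon0 _ _ hp)
    (fun z => by rcases hb with rfl | rfl <;> rcases hp with rfl | rfl <;> simp [mon0_mon0, mon_id])
    (fun z => by rcases hb with rfl | rfl <;> rcases hp with rfl | rfl <;> simp [mon0_mon0, mon_id])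

theorem coreD_apply (b p a : ℤ) (hb : b = 1 ∨ b = -1) (hp : p = 1 ∨ p = -1) (z : Circle × ℂ) :
    coreD b p a hb hp z = mon 0 b p a z := rfl

theorem mon_eq_zero (q b p a : ℤ) (z : Circle × ℂ) : (mon q b p a z).2 = 0 ↔ z.2 = 0 := by
  rw [← norm_eq_zero, norm_mon, norm_eq_zero]

theorem coreD_surj (b p a : ℤ) (hb : b = 1 ∨ b = -1) (hp : p = 1 ∨ p = -1) (u : Circle) :
    ∃ z, mon 0 b p a z = (u, 0) := (coreD b p a hb hp).surjective _

namespace Tube

variable (t : Tube)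

/-- the same slope up to the sign `ε` -/
def signRep (σ' σ : FillingData) {ε : ℤ} (hε : ε = 1 ∨ ε = -1) (hp : σ'.p = ε * σ.p)
    (hq : σ'.q = ε * σ.q) : Rep t t σ' σ where
  ψ := mon 0 ε ε (σ.a * σ'.b - σ.b * σ'.a)
  ld := (coreD _ _ _ hε hε).isLocalDiffeomorph
  inj := (coreD _ _ _ hε hε).injective
  zero := mon_eq_zero _ _ _ _
  surj := coreD_surj _ _ _ hε hε
  ext := rfl
  rel z hz := by
    have d := σ.det
    have d' := σ'.det
    rw [hp, hq] at d'
    have e1 : σ'.b = (σ.a * σ'.b - σ.b * σ'.a) * σ.q + ε * σ.b := by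
      rcases hε with rfl | rfl
      · linear_combination (-σ'.b) * d + σ.b * d'
      · linear_combination (-σ'.b) * d - σ.b * d'
    have e2 : σ'.a = (σ.a * σ'.b - σ.b * σ'.a) * σ.p + ε * σ.a := by
      rcases hε with rfl | rfl
      · linear_combination (-σ'.a) * d + σ.a * d'
      · linear_combination (-σ'.a) * d - σ.a * d'
    rw [mon_mon _ _ _ _ _ _ _ _ hz, ← e1, ← e2, zero_mul, zero_mul, add_zero, add_zero, ← hp, ← hq]

/-- the filling along the meridian is the sphere -/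
def sphereDiffeo (σ : FillingData) (hq : σ.q = 0) : Fill t σ ≃ₘ^∞⟮𝓡 3, 𝓡 3⟯ S3 :=
  have h : σ.p * -σ.b = 1 := by have := σ.det; rw [hq] at this; linarith
  have hp : σ.p = 1 ∨ σ.p = -1 := Int.eq_one_or_neg_one_of_mul_eq_one h
  have hb : σ.b = 1 ∨ σ.b = -1 := by rcases hp with e | e <;> rw [e] at h <;> omega
  (t.two σ).diffeo Subtype.val (t.τ ∘ coreD σ.b σ.p σ.a hb hp) (ld_val _)
    (ld_comp t.ld (coreD _ _ _ hb hp).isLocalDiffeomorph) Subtype.val_injective
    (t.inj.comp (coreD _ _ _ hb hp).injective)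
    (fun x => by
      by_cases hx : x ∈ range t.τ
      · obtain ⟨z, rfl⟩ := hx
        obtain ⟨w, rfl⟩ := (coreD σ.b σ.p σ.a hb hp).surjective z
        exact Or.inr ⟨w, rfl⟩
      · exact Or.inl ⟨⟨x, t.mem_Ext_of_not_mem_range hx⟩, rfl⟩)
    (fun x z => Iff.trans
      ⟨fun e => ⟨mt (mon_eq_zero 0 σ.b σ.p σ.a z).2 (t.τ_mem_Ext.1 (by
          rw [show t.τ (mon 0 σ.b σ.p σ.a z) = x.1 from e.symm]; exact x.2)), by rw [hq]; exact e.symm⟩,
        fun e => by have := e.2; rw [hq] at this; exact this.symm⟩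
      ((t.ie_eq_it σ).symm.trans (t.two σ).inl_eq_inr))

theorem sphereDiffeo_ie (σ : FillingData) (hq : σ.q = 0) (x : t.Ext) :
    t.sphereDiffeo σ hq (t.ie σ x) = x := by
  unfold sphereDiffeo
  rw [Two.diffeo_inl]

theorem sphereDiffeo_it (σ : FillingData) (hq : σ.q = 0) (z : Circle × ℂ) :
    t.sphereDiffeo σ hq (t.it σ z) = t.τ (mon 0 σ.b σ.p σ.a z) := by
  unfold sphereDiffeo
  rw [Two.diffeo_inr]
  rfl

end Tube

end Crest.Agent.X212.Ext52
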