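import Crest.Prelude.Def_DehnFilling
import Crest.Agent.X212.Glue52.Two
import Crest.Agent.X212.Glue52.More

/-!
# X212 / Ext52 (helper52): smooth tubes, knot exteriors, smooth Dehn fillings

* `Tube`      : a smooth open embedding `τ : Circle × ℂ → S3`; `t.thick : ThickKnot`;
* `t.Ext`     : the open exterior `S3 ∖ K`; `Cz = Circle × (ℂ ∖ 0)`; `t.τE : Cz → t.Ext`;
* `tw σ`      : the gluing diffeomorphism `(y, r x) ↦ (x^q y^b, r x^p y^a)` of `Cz`;
* `Fill t σ`  : the smooth filling `Ext ∪ Circle × ℂ`, a closed connected manifold with model `𝓡 3`;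
* `KD`        : a Seifert framed tube with its meridional angle `θ : Ext → Circle`.
-/

set_option autoImplicit false
set_option linter.unusedSectionVars false
set_option linter.style.haveILetI false

open Set Filter Topology Function TopologicalSpace Metric
open scoped ContDiff Manifold
open Crest.GeometryTopology.DehnSurgery Crest.Agent.X212.Glue52

noncomputable section

namespace Crest.Agent.X212.Ext52

/-- Euclidean three-space, the model of all three-manifolds -/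
abbrev E3 : Type := EuclideanSpace ℝ (Fin 3)

/-- the model with corners of `Circle × ℂ` -/
abbrev IT : ModelWithCorners ℝ (EuclideanSpace ℝ (Fin 1) × ℂ) (ModelProd (EuclideanSpace ℝ (Fin 1)) ℂ) :=
  (𝓡 1).prod 𝓘(ℝ, ℂ)

/-- the punctured solid torus -/
def Cz : Opens (Circle × ℂ) := ⟨{a | a.2 ≠ 0}, isOpen_ne.preimage continuous_snd⟩

/-- the monomial map `(y, r x) ↦ (x^q y^b, r x^p y^a)` -/
def mon (q b p a : ℤ) (z : Circle × ℂ) : Circle × ℂ :=
  (dir z.2 ^ q * z.1 ^ b, (‖z.2‖ : ℂ) * (dir z.2 ^ p * z.1 ^ a : Circle))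

@[simp] theorem norm_mon (q b p a : ℤ) (z : Circle × ℂ) : ‖(mon q b p a z).2‖ = ‖z.2‖ := by
  simp only [mon, norm_mul, Circle.norm_coe, mul_one, Complex.norm_real, norm_norm]

theorem mon_ne (q b p a : ℤ) {z : Circle × ℂ} (h : z.2 ≠ 0) : (mon q b p a z).2 ≠ 0 := by
  rwa [← norm_ne_zero_iff, norm_mon, norm_ne_zero_iff]

theorem dir_mon (q b p a : ℤ) {z : Circle × ℂ} (h : z.2 ≠ 0) :
    dir (mon q b p a z).2 = dir z.2 ^ p * z.1 ^ a := dir_mul (norm_pos_iff.2 h) _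

theorem mon_polar (q b p a : ℤ) {r : ℝ} (hr : 0 < r) (x y : Circle) :
    mon q b p a (y, r * x) = (x ^ q * y ^ b, (r : ℂ) * (x ^ p * y ^ a : Circle)) := by
  simp only [mon, dir_mul hr, norm_mul, Circle.norm_coe, mul_one, Complex.norm_real,
    Real.norm_of_nonneg hr.le]

theorem mon_mon (q b p a q' b' p' a' : ℤ) {z : Circle × ℂ} (h : z.2 ≠ 0) :
    mon q b p a (mon q' b' p' a' z) =
      mon (p' * q + q' * b) (a' * q + b' * b) (p' * p + q' * a) (a' * p + b' * a) z := by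
  have e : ∀ (x y : Circle) (m n : ℤ), (x ^ p' * y ^ a') ^ m * (x ^ q' * y ^ b') ^ n =
      x ^ (p' * m + q' * n) * y ^ (a' * m + b' * n) := fun x y m n => by
    simp only [mul_zpow, ← zpow_mul, zpow_add]
    exact mul_mul_mul_comm _ _ _ _
  refine Prod.ext ?_ ?_
  · show dir (mon q' b' p' a' z).2 ^ q * (mon q' b' p' a' z).1 ^ b = _
    rw [dir_mon _ _ _ _ h]
    exact e _ _ _ _
  · show (‖(mon q' b' p' a' z).2‖ : ℂ) *
      (dir (mon q' b' p' a' z).2 ^ p * (mon q' b' p' a' z).1 ^ a : Circle) = _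
    rw [dir_mon _ _ _ _ h, norm_mon]
    exact congrArg (fun u : Circle => (‖z.2‖ : ℂ) * u) (e _ _ _ _)

theorem mon_id (z : Circle × ℂ) : mon 0 1 1 0 z = z := by
  simp only [mon, zpow_zero, zpow_one, one_mul, mul_one, norm_mul_dir]

theorem contMDiff_zpow (n : ℤ) : ContMDiff (𝓡 1) (𝓡 1) ∞ fun u : Circle => u ^ n := by
  cases n with
  | ofNat n => simpa using (contMDiff_pow (I := 𝓡 1) (n := ∞) (G := Circle) n)
  | negSucc n => simpa using (contMDiff_pow (I := 𝓡 1) (n := ∞) (G := Circle) (n + 1)).inv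

theorem contMDiffAt_mon (q b p a : ℤ) {z : Circle × ℂ} (h : z.2 ≠ 0) :
    ContMDiffAt IT IT ∞ (mon q b p a) z := by
  have d : ContMDiffAt IT (𝓡 1) ∞ (fun w : Circle × ℂ => dir w.2) z :=
    (contMDiffAt_dir h).comp z contMDiffAt_snd
  have m : ∀ k l : ℤ, ContMDiffAt IT (𝓡 1) ∞ (fun w : Circle × ℂ => dir w.2 ^ k * w.1 ^ l) z :=
    fun k l => ((contMDiff_zpow k _).comp z d).mul ((contMDiff_zpow l _).comp z contMDiffAt_fst)
  have n : ContMDiffAt IT 𝓘(ℝ, ℝ) ∞ (fun w : Circle × ℂ => ‖w.2‖) z :=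
    (contMDiffAt_iff_contDiffAt.2 (contDiffAt_norm_c h)).comp z contMDiffAt_snd
  exact (m q b).prodMk ((contMDiff_polar _).comp z ((m p a).prodMk n))

/-- the monomial map on the punctured solid torus -/
def monZ (q b p a : ℤ) (z : Cz) : Cz := ⟨mon q b p a z, mon_ne q b p a z.2⟩

theorem contMDiff_monZ (q b p a : ℤ) : ContMDiff IT IT ∞ (monZ q b p a) := fun z =>
  (ContMDiffAt.subtypeVal_comp_iff Cz _ z).1
    ((contMDiffAt_mon q b p a z.2).comp z contMDiff_subtype_val.contMDiffAt)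

/-- the gluing diffeomorphism of a filling -/
def tw (σ : FillingData) : Cz ≃ₘ^∞⟮IT, IT⟯ Cz :=
  diffeoOf (monZ σ.q σ.b σ.p σ.a) (monZ σ.q (-σ.p) (-σ.b) σ.a) (contMDiff_monZ _ _ _ _)
    (contMDiff_monZ _ _ _ _)
    (fun z => Subtype.ext <| (mon_mon _ _ _ _ _ _ _ _ z.2).trans <| by
      have := σ.det
      rw [show σ.p * σ.q + σ.q * -σ.p = 0 by ring, show σ.a * σ.q + σ.b * -σ.p = 1 by linarith,
        show σ.p * -σ.b + σ.q * σ.a = 1 by linarith, show σ.a * -σ.b + σ.b * σ.a = 0 by ring, mon_id])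
    (fun z => Subtype.ext <| (mon_mon _ _ _ _ _ _ _ _ z.2).trans <| by
      have := σ.det
      rw [show -σ.b * σ.q + σ.q * σ.b = 0 by ring, show σ.a * σ.q + -σ.p * σ.b = 1 by linarith,
        show -σ.b * σ.p + σ.q * σ.a = 1 by linarith, show σ.a * σ.p + -σ.p * σ.a = 0 by ring, mon_id])

theorem tw_val (σ : FillingData) (z : Cz) : (tw σ z : Circle × ℂ) = mon σ.q σ.b σ.p σ.a z := rfl

theorem tw_symm_val (σ : FillingData) (z : Cz) :
    ((tw σ).symm z : Circle × ℂ) = mon σ.q (-σ.p) (-σ.b) σ.a z := rfl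

/-- a smooth tube -/
structure Tube where
  τ : Circle × ℂ → S3
  ld : IsLocalDiffeomorph IT (𝓡 3) ∞ τ
  inj : Injective τ

namespace Tube

variable (t : Tube)

theorem isOpenEmbedding : IsOpenEmbedding t.τ := ld_isOpenEmbedding t.ld t.inj

/-- the underlying thick knot -/
def thick : ThickKnot := ⟨t.τ, t.isOpenEmbedding⟩

theorem isCompact_tube (r : ℝ) : IsCompact (t.τ '' (univ ×ˢ closedBall (0 : ℂ) r)) :=
  (isCompact_univ.prod (isCompact_closedBall _ _)).image t.isOpenEmbedding.continuous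

theorem isCompact_core : IsCompact t.thick.core :=
  (isCompact_univ.prod isCompact_singleton).image t.isOpenEmbedding.continuous

/-- the open exterior -/
def Ext : Opens S3 := ⟨t.thick.coreᶜ, t.isCompact_core.isClosed.isOpen_compl⟩

theorem τ_mem_Ext {z : Circle × ℂ} : t.τ z ∈ t.Ext ↔ z.2 ≠ 0 := by
  refine not_congr ⟨?_, fun h => ⟨z, ⟨mem_univ _, h⟩, rfl⟩⟩
  rintro ⟨w, hw, e⟩
  rw [← t.inj e]
  exact hw.2

theorem mem_Ext_of_not_mem_range {x : S3} (h : x ∉ range t.τ) : x ∈ t.Ext :=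
  fun ⟨w, _, e⟩ => h ⟨w, e⟩

/-- the punctured tube in the exterior -/
def τE (z : Cz) : t.Ext := ⟨t.τ z, t.τ_mem_Ext.2 z.2⟩

theorem ld_τE : IsLocalDiffeomorph IT (𝓡 3) ∞ t.τE := fun z => ld_codRestrict (ld_restrict (t.ld z))

theorem τE_injective : Injective t.τE := fun _ _ e => Subtype.ext (t.inj (congrArg Subtype.val e))

/-- the linear identification of the model of `Circle × ℂ` with `E3` -/
def LT : (EuclideanSpace ℝ (Fin 1) × ℂ) ≃L[ℝ] E3 := linE 3 _ (by simp)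

/-- the gluing data of a filling -/
def two (σ : FillingData) : Two E3 (𝓡 3) IT IT t.Ext (Circle × ℂ) Cz where
  L₁ := ContinuousLinearEquiv.refl ℝ _
  L₂ := LT
  j₁ := t.τE ∘ tw σ
  j₂ := Subtype.val
  ld₁ := ld_comp t.ld_τE (tw σ).isLocalDiffeomorph
  ld₂ := ld_val Cz
  inj₁ := t.τE_injective.comp (tw σ).injective
  inj₂ := Subtype.val_injective

end Tube

/-- the smooth Dehn filling -/
abbrev Fill (t : Tube) (σ : FillingData) : Type := (t.two σ).M

namespace Tube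

variable (t : Tube) (σ : FillingData)

/-- the exterior in the filling -/
abbrev ie : t.Ext → Fill t σ := (t.two σ).inl

/-- the filling solid torus in the filling -/
abbrev it : Circle × ℂ → Fill t σ := (t.two σ).inr

theorem ie_τE (z : Cz) : t.ie σ (t.τE (tw σ z)) = t.it σ z := (t.two σ).inl_j₁ z

theorem ie_τE' (z : Cz) : t.ie σ (t.τE z) = t.it σ ((tw σ).symm z) := by
  rw [← ie_τE, Diffeomorph.apply_symm_apply]

theorem ie_eq_it {x : t.Ext} {z : Circle × ℂ} :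
    t.ie σ x = t.it σ z ↔ z.2 ≠ 0 ∧ t.τ (mon σ.q σ.b σ.p σ.a z) = x := by
  refine (t.two σ).inl_eq_inr.trans ⟨?_, fun h => ⟨⟨z, h.1⟩, Subtype.ext h.2, rfl⟩⟩
  rintro ⟨n, rfl, rfl⟩
  exact ⟨n.2, rfl⟩

theorem image_j₁ (s : Set ℝ) : (t.two σ).j₁ '' {z | ‖z.1.2‖ ∈ s} =
    Subtype.val ⁻¹' (t.τ '' {z | ‖z.2‖ ∈ s}) := by
  ext x
  constructor
  · rintro ⟨z, hz, rfl⟩
    exact ⟨tw σ z, by rwa [mem_ofPred_eq, tw_val, norm_mon], rfl⟩
  · rintro ⟨z, hz, e⟩
    have h : z.2 ≠ 0 := t.τ_mem_Ext.1 (e ▸ x.2)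
    refine ⟨(tw σ).symm ⟨z, h⟩, by rwa [mem_ofPred_eq, tw_symm_val, norm_mon], ?_⟩
    show t.τE (tw σ _) = x
    rw [Diffeomorph.apply_symm_apply]
    exact Subtype.ext e

theorem tube_eq (r : ℝ) : {z : Circle × ℂ | ‖z.2‖ ∈ Iic r} = univ ×ˢ closedBall (0 : ℂ) r := by
  ext z
  simp

theorem otube_eq (r : ℝ) : {z : Circle × ℂ | ‖z.2‖ ∈ Iio r} = univ ×ˢ ball (0 : ℂ) r := by
  ext z
  simp

instance : T2Space (Fill t σ) := by
  refine (t.two σ).t2Space (A := {z | ‖z.1.2‖ ∈ Iic 1}) (B := {z | ‖z.1.2‖ ∈ Ici 1})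
    (eq_univ_of_forall fun z => le_total _ _) ?_ ?_
  · rw [image_j₁, tube_eq]
    exact (t.isCompact_tube 1).isClosed.preimage continuous_subtype_val
  · have : (t.two σ).j₂ '' {z | ‖z.1.2‖ ∈ Ici 1} = {z : Circle × ℂ | 1 ≤ ‖z.2‖} := by
      ext z
      refine ⟨?_, fun h => ⟨⟨z, norm_pos_iff.1 (one_pos.trans_le h)⟩, h, rfl⟩⟩
      rintro ⟨w, hw, rfl⟩
      exact hw
    rw [this]
    exact isClosed_le continuous_const continuous_snd.norm

/-- the closed exterior of the tube of radius `r`, inside the open exterior -/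
def cext (r : ℝ) : Set t.Ext := Subtype.val ⁻¹' (t.τ '' (univ ×ˢ ball (0 : ℂ) r))ᶜ

theorem isCompact_cext {r : ℝ} (hr : 0 < r) : IsCompact (t.cext r) := by
  refine IsInducing.subtypeVal.isCompact_preimage_iff ?_ |>.2
    (t.isOpenEmbedding.isOpenMap _ (isOpen_univ.prod isOpen_ball)).isClosed_compl.isCompact
  intro x hx
  refine ⟨⟨x, ?_⟩, rfl⟩
  rintro ⟨w, hw, e⟩
  exact hx ⟨w, ⟨mem_univ _, by rw [show w.2 = 0 from hw.2]; exact mem_ball_self hr⟩, e⟩

instance : CompactSpace (Fill t σ) := by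
  refine (t.two σ).compactSpace (t.isCompact_cext one_pos)
    (isCompact_univ.prod (isCompact_closedBall (0 : ℂ) 1)) (fun x => ?_) (fun z => ?_)
  · by_cases h : x ∈ t.cext 1
    · exact Or.inl h
    · have h' : x ∈ (t.two σ).j₁ '' {z | ‖z.1.2‖ ∈ Iio 1} := by
        rw [image_j₁, otube_eq]
        exact not_not.1 h
      obtain ⟨z, hz, e⟩ := h'
      exact Or.inr ⟨z, e, mem_univ _, mem_closedBall_zero_iff.2 (le_of_lt hz)⟩
  · by_cases h : ‖z.2‖ ≤ 1
    · exact Or.inl ⟨mem_univ _, mem_closedBall_zero_iff.2 h⟩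
    · rw [not_le] at h
      refine Or.inr ⟨⟨z, norm_pos_iff.1 (one_pos.trans h)⟩, rfl, ?_⟩
      rintro ⟨w, hw, e⟩
      have h1 := mem_ball_zero_iff.1 hw.2
      rw [t.inj e] at h1
      exact lt_asymm h (by rwa [← norm_mon σ.q σ.b σ.p σ.a z])

end Tube

/-- a knot datum: a Seifert framed smooth tube with its meridional angle -/
structure KD extends Tube where
  θ : toTube.Ext → Circle
  smθ : ContMDiff (𝓡 3) (𝓡 1) ∞ θ
  θτ : ∀ z : Cz, θ (toTube.τE z) = dir z.1.2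

end Crest.Agent.X212.Ext52
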