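import Crest.Agent.X212.Glue52.More

/-!
# X212 / Ext52 (helper52): two lifting lemmas

* `exists_section` : a smooth idempotent field on a normed space has a smooth section without zeros on a ball;
* `exists_deg`     : a circle valued map on `Circle × Circle × ℝ` that lifts on one second circle is
  `u ^ n * exp h`.
-/

set_option autoImplicit false
set_option linter.unusedSectionVars false

open Set Filter Topology Function Metric Real
open scoped ContDiff Manifold

noncomputable section

namespace Crest.Agent.X212.Ext52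

theorem exists_section {E F : Type*} [NormedAddCommGroup E] [NormedSpace ℝ E] [ProperSpace E]
    [NormedAddCommGroup F] [NormedSpace ℝ F] {P : E → F →L[ℝ] F} (hP : ContDiff ℝ ∞ P)
    (idem : ∀ x w, P x (P x w) = P x w) {v : F} (hv : P 0 v ≠ 0) {R : ℝ} (hR : 0 < R) :
    ∃ s : E → F, ContDiff ℝ ∞ s ∧ ∀ x, ‖x‖ ≤ R → P x (s x) ≠ 0 := by
  obtain ⟨δ, hδ, h⟩ := Metric.uniformContinuousOn_iff.1
    ((isCompact_closedBall (0 : E) R).uniformContinuousOn_of_continuous hP.continuous.continuousOn)
    1 one_pos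
  obtain ⟨N, hN⟩ := exists_nat_gt (R / δ)
  have N0 : (0 : ℝ) < N := (div_pos hR hδ).trans hN
  have key : ∀ j : ℕ, j ≤ N → ∃ s : E → F, ContDiff ℝ ∞ s ∧
      ∀ x, ‖x‖ ≤ R → P (((j : ℝ) / N) • x) (s x) ≠ 0 := by
    intro j
    induction j with
    | zero => exact fun _ => ⟨fun _ => v, contDiff_const, fun x _ => by simpa using hv⟩
    | succ j ih =>
      intro hj
      obtain ⟨s, hs, h0⟩ := ih (Nat.le_of_succ_le hj)
      refine ⟨fun x => P (((j : ℝ) / N) • x) (s x),
        (hP.comp (contDiff_id.const_smul _)).clm_apply hs, fun x hx e => ?_⟩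
      set a := ((j : ℝ) / N) • x
      set b := (((j + 1 : ℕ) : ℝ) / N) • x
      have m : ∀ k : ℕ, k ≤ N → ((k : ℝ) / N) • x ∈ closedBall (0 : E) R := fun k hk => by
        rw [mem_closedBall_zero_iff, norm_smul, Real.norm_of_nonneg (by positivity)]
        exact (mul_le_of_le_one_left (norm_nonneg _)
          ((div_le_one N0).2 (by exact_mod_cast hk))).trans hx
      have d : dist a b < δ := by
        rw [dist_comm, dist_eq_norm, ← sub_smul, norm_smul, ← sub_div, Nat.cast_succ, add_sub_cancel_left,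
          Real.norm_of_nonneg (by positivity), one_div, inv_mul_lt_iff₀ N0]
        rw [div_lt_iff₀ hδ] at hN
        exact hx.trans_lt hN
      have h1 := h a (m j (Nat.le_of_succ_le hj)) b (m _ hj) d
      rw [dist_eq_norm] at h1
      have h2 := (P a - P b).le_opNorm (P a (s x))
      rw [sub_apply, idem, e, sub_zero] at h2
      have h3 := norm_pos_iff.2 (h0 x hx)
      nlinarith
  obtain ⟨s, hs, h0⟩ := key N le_rfl
  exact ⟨s, hs, fun x hx => by simpa [div_self N0.ne'] using h0 x hx⟩

theorem exists_lift {A : Type*} [TopologicalSpace A] [SimplyConnectedSpace A]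
    [LocallyPathConnectedSpace A] {g : A → Circle} (hg : Continuous g) :
    ∃ G : A → ℝ, Continuous G ∧ ∀ a, Circle.exp (G a) = g a := by
  obtain ⟨a₀⟩ : Nonempty A := inferInstance
  obtain ⟨G, ⟨-, h⟩, -⟩ := Circle.isCoveringMap_exp.existsUnique_continuousMap_lifts ⟨g, hg⟩ a₀ _
    (Circle.exp_arg _)
  exact ⟨G, G.continuous, congrFun h⟩

/-- two lifts differ by a constant -/
theorem lift_sub {A : Type*} [TopologicalSpace A] [PreconnectedSpace A] {G H : A → ℝ}
    (hG : Continuous G) (hH : Continuous H) (h : ∀ a, Circle.exp (G a) = Circle.exp (H a)) (a b : A) :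
    G a - H a = G b - H b :=
  Circle.isCoveringMap_exp.const_of_comp (g := fun a => G a - H a) (hG.sub hH)
    (fun a b => by rw [Circle.exp_sub, Circle.exp_sub, h, h, div_self', div_self']) a b

theorem isOpenQuotientMap_exp : IsOpenQuotientMap Circle.exp :=
  ⟨Circle.exp_surjective, Circle.exp.continuous, Circle.isCoveringMap_exp.isOpenMap⟩

theorem exists_deg {g : Circle × Circle × ℝ → Circle} (hg : Continuous g) {u₀ : Circle} {r₀ : ℝ}
    {H : Circle → ℝ} (hH : Continuous H) (h0 : ∀ v, Circle.exp (H v) = g (u₀, v, r₀)) :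
    ∃ (n : ℤ) (h : Circle × Circle × ℝ → ℝ), Continuous h ∧
      ∀ a, g a = a.1 ^ n * Circle.exp (h a) := by
  let q : ℝ × ℝ × ℝ → Circle × Circle × ℝ := Prod.map Circle.exp (Prod.map Circle.exp id)
  have hq : IsOpenQuotientMap q :=
    isOpenQuotientMap_exp.prodMap (isOpenQuotientMap_exp.prodMap IsOpenQuotientMap.id)
  obtain ⟨G, hG, e⟩ := exists_lift (hg.comp hq.continuous)
  have sh : ∀ c : ℝ × ℝ × ℝ, (∀ a, q (a + c) = q a) → ∀ a b, G (a + c) - G a = G (b + c) - G b :=
    fun c hc => lift_sub (hG.comp (continuous_id.add continuous_const)) hG fun a => by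
      simp only [e, comp_apply, hc]
  have q1 : ∀ a, q (a + (2 * π, 0, 0)) = q a := fun ⟨_, _, _⟩ => by simp [q]
  have q2 : ∀ a, q (a + (0, 2 * π, 0)) = q a := fun ⟨_, _, _⟩ => by simp [q]
  obtain ⟨n, hn⟩ : ∃ n : ℤ, G (0 + (2 * π, 0, 0)) - G 0 = n * (2 * π) := by
    rw [← Circle.exp_eq_one, Circle.exp_sub, e, e, comp_apply, comp_apply, q1, div_self']
  have z2 : ∀ a, G (a + (0, 2 * π, 0)) = G a := fun a => by
    have h1 := lift_sub (G := fun s : ℝ => G (Complex.arg u₀, s, r₀)) (H := fun s => H (Circle.exp s))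
      (hG.comp (continuous_const.prodMk (continuous_id.prodMk continuous_const)))
      (hH.comp Circle.exp.continuous) (fun s => by simp [e, h0, q, Circle.exp_arg]) (2 * π) 0
    have h2 := sh _ q2 a (Complex.arg u₀, 0, r₀)
    simp only [Circle.exp_two_pi, Circle.exp_zero, Prod.mk_add_mk, add_zero, zero_add] at h1 h2
    linarith
  let K : ℝ × ℝ × ℝ → ℝ := fun a => G a - n * a.1
  have p1 : ∀ t r, Periodic (fun s => K (s, t, r)) (2 * π) := fun t r s => by
    have := sh _ q1 (s, t, r) 0
    simp only [Prod.mk_add_mk, add_zero] at this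
    simp only [K]
    linarith
  have p2 : ∀ s r, Periodic (fun t => K (s, t, r)) (2 * π) := fun s r t => by
    have := z2 (s, t, r)
    simp only [Prod.mk_add_mk, add_zero] at this
    simp only [K, this]
  let h : Circle × Circle × ℝ → ℝ := fun a => K (Complex.arg a.1, Complex.arg a.2.1, a.2.2)
  have hK : h ∘ q = K := by
    funext ⟨s, t, r⟩
    obtain ⟨k, hk⟩ := Circle.exp_eq_exp.1 (Circle.exp_arg (Circle.exp s))
    obtain ⟨l, hl⟩ := Circle.exp_eq_exp.1 (Circle.exp_arg (Circle.exp t))
    show K (Complex.arg (Circle.exp s), Complex.arg (Circle.exp t), r) = _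
    rw [hk, hl]
    exact ((p1 _ r).int_mul k s).trans ((p2 s r).int_mul l t)
  refine ⟨n, h, hq.continuous_comp_iff.1 (hK ▸ hG.sub (continuous_const.mul continuous_fst)), fun a => ?_⟩
  obtain ⟨b, rfl⟩ := hq.surjective a
  rw [show h (q b) = K b from congrFun hK b, show (q b).1 = Circle.exp b.1 from rfl, ← Circle.exp_intCast_mul,
    ← Circle.exp_add, add_sub_cancel]
  exact (e b).symm

end Crest.Agent.X212.Ext52
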